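import Vale.Agent.P365.X7.Mix

set_option linter.all false

/-!
# P365 / X7 / Coin: the mixture `(1 - p) • U + p • tau` as the law of a site value resampled with
probability `p`.
-/

namespace P365L.X7

open MeasureTheory ProbabilityTheory
open scoped ENNReal Real

/-- the coin: `true` with probability `p` -/
noncomputable def coin (p : ℝ) : Measure Bool :=
  ENNReal.ofReal (1 - p) • Measure.dirac false + ENNReal.ofReal p • Measure.dirac true

theorem isProb_coin {p : ℝ} (hp : 0 < p) (hp1 : p < 1) : IsProbabilityMeasure (coin p) := by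
  refine ⟨?_⟩
  simp only [coin, Measure.add_apply, Measure.smul_apply, measure_univ, smul_eq_mul, mul_one]
  rw [← ENNReal.ofReal_add (by linarith) hp.le]
  simp

/-- the resampled value -/
def pick (T : ℝ × Bool × ℝ) : ℝ := if T.2.1 = true then T.2.2 else T.1

theorem measurable_pick : Measurable pick := by
  unfold pick
  refine Measurable.ite ?_ (measurable_snd.comp measurable_snd) measurable_fst
  exact (measurable_fst.comp measurable_snd) (measurableSet_singleton true)

theorem map_pick {p : ℝ} (hp : 0 < p) (hp1 : p < 1) (U tau : Measure ℝ) [IsProbabilityMeasure U]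
    [IsProbabilityMeasure tau] :
    (U.prod ((coin p).prod tau)).map pick = ENNReal.ofReal (1 - p) • U + ENNReal.ofReal p • tau := by
  have hc := isProb_coin hp hp1
  refine Measure.ext fun s hs => ?_
  rw [Measure.map_apply measurable_pick hs]
  have hA : MeasurableSet (pick ⁻¹' s) := measurable_pick hs
  have h1 : pick ⁻¹' s = (s ×ˢ (({false} : Set Bool) ×ˢ (Set.univ : Set ℝ))) ∪
      ((Set.univ : Set ℝ) ×ˢ (({true} : Set Bool) ×ˢ s)) := by
    ext ⟨w, b, t⟩
    cases b <;> simp [pick]
  have hd : Disjoint (s ×ˢ (({false} : Set Bool) ×ˢ (Set.univ : Set ℝ)))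
      ((Set.univ : Set ℝ) ×ˢ (({true} : Set Bool) ×ˢ s)) := by
    rw [Set.disjoint_left]
    rintro ⟨w, b, t⟩ h2 h3
    cases b <;> simp_all
  rw [h1, measure_union hd (MeasurableSet.univ.prod ((measurableSet_singleton true).prod hs)),
    Measure.prod_prod, Measure.prod_prod, Measure.prod_prod, Measure.prod_prod]
  simp [coin, mul_comm]

end P365L.X7
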