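import Vale.Agent.P365.X3.Crit
import Vale.Agent.P365.X5.Out
import Vale.Agent.P365.Comp.Cover
import Vale.Agent.P365.Open.Out
import Vale.Agent.P365.L5.Trunc
import Vale.Agent.P365.Stat.Final

set_option linter.all false

/-!
# P365 / X7 / Core: localization for every law dominated by `(1 + δ)` times the law
`background + γ · Cauchy`.
-/

namespace P365L.X7

open MeasureTheory ProbabilityTheory Complex Filter
open P365L P365L.Comp
open scoped ENNReal Real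

/-- the law `background + γ · Cauchy` is dominated by a multiple of the Cauchy law -/
theorem qlaw_le_nu {γ : ℝ} (hγ : 0 < γ) (ρ : Measure ℝ) [IsProbabilityMeasure ρ] {B : ℝ}
    (hρ : ρ (Set.Icc (-B) B)ᶜ = 0) :
    ∃ K : ℝ, 0 < K ∧ qlaw γ ρ ≤ ENNReal.ofReal K • nu := by
  refine ⟨(γ + 1 / γ) * (1 + |B|) ^ 2, by positivity, ?_⟩
  refine Measure.le_iff.2 fun s hs => ?_
  rw [Measure.smul_apply, smul_eq_mul, qlaw, Measure.map_apply (measurable_qf γ) hs]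
  have hmA : MeasurableSet ((fun t : ℝ × ℝ => t.1 + γ * t.2) ⁻¹' s) := measurable_qf γ hs
  have e1 : (ρ.prod nu) ((fun t : ℝ × ℝ => t.1 + γ * t.2) ⁻¹' s) =
      ∫⁻ w, ∫⁻ c, s.indicator (1 : ℝ → ℝ≥0∞) (w + γ * c) ∂nu ∂ρ := by
    rw [← lintegral_indicator_one hmA]
    exact lintegral_prod _ ((measurable_one.indicator hmA).aemeasurable)
  rw [e1]
  have hae : ∀ᵐ w ∂ρ, |w| ≤ |B| := by
    have h1 : ∀ᵐ w ∂ρ, w ∈ Set.Icc (-B) B := by
      rw [ae_iff]
      exact hρ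
    filter_upwards [h1] with w hw
    rw [abs_le]
    exact ⟨by linarith [hw.1, le_abs_self B], by linarith [hw.2, le_abs_self B]⟩
  have h2 : ∀ᵐ w ∂ρ, ∫⁻ c, s.indicator (1 : ℝ → ℝ≥0∞) (w + γ * c) ∂nu ≤
      ENNReal.ofReal ((γ + 1 / γ) * (1 + |B|) ^ 2) * nu s := by
    filter_upwards [hae] with w hw
    have hf : Measurable (s.indicator (1 : ℝ → ℝ≥0∞)) := measurable_one.indicator hs
    have hf' : Measurable fun t : ℝ => s.indicator (1 : ℝ → ℝ≥0∞) (w + t) :=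
      hf.comp (measurable_const_add w)
    have h3 : ∫⁻ c, s.indicator (1 : ℝ → ℝ≥0∞) (w + γ * c) ∂nu ≤
        ENNReal.ofReal (γ + 1 / γ) * ∫⁻ t, s.indicator (1 : ℝ → ℝ≥0∞) (t + w) ∂nu := by
      have h4 := P365F.lintegral_scale hγ hf'
      rw [h4, P365F.nu_lintegral (f := fun t => s.indicator (1 : ℝ → ℝ≥0∞) (t + w))
        (hf.comp (measurable_add_const w)), ← lintegral_const_mul _ (by
          exact (Measurable.ennreal_ofReal (by fun_prop)).mul (hf.comp (measurable_add_const w)))]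
      refine lintegral_mono fun x => ?_
      rw [← mul_assoc, ← ENNReal.ofReal_mul (by positivity), add_comm w x]
      refine mul_le_mul_of_nonneg_right (ENNReal.ofReal_le_ofReal ?_) zero_le
      have h5 : γ * (x ^ 2 + γ ^ 2)⁻¹ ≤ (γ + 1 / γ) * (x ^ 2 + 1)⁻¹ := by
        rw [← div_eq_mul_inv, ← div_eq_mul_inv, div_le_div_iff₀ (by positivity) (by positivity)]
        have h6 : (γ + 1 / γ) * (x ^ 2 + γ ^ 2) =
            γ * (x ^ 2 + 1) + (γ ^ 3 + x ^ 2 / γ) := by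
          field_simp
          ring
        rw [h6]
        have : 0 ≤ γ ^ 3 + x ^ 2 / γ := by positivity
        linarith
      calc π⁻¹ * γ * (x ^ 2 + γ ^ 2)⁻¹ = π⁻¹ * (γ * (x ^ 2 + γ ^ 2)⁻¹) := by ring
        _ ≤ π⁻¹ * ((γ + 1 / γ) * (x ^ 2 + 1)⁻¹) := mul_le_mul_of_nonneg_left h5 (by positivity)
        _ = (γ + 1 / γ) * (π⁻¹ * (x ^ 2 + 1)⁻¹) := by ring
    have h7 := lintegral_shift_le w hf
    rw [lintegral_indicator_one hs] at h7
    refine h3.trans ?_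
    calc ENNReal.ofReal (γ + 1 / γ) * ∫⁻ t, s.indicator (1 : ℝ → ℝ≥0∞) (t + w) ∂nu
        ≤ ENNReal.ofReal (γ + 1 / γ) * (ENNReal.ofReal ((1 + |w|) ^ 2) * nu s) := by gcongr
      _ ≤ ENNReal.ofReal (γ + 1 / γ) * (ENNReal.ofReal ((1 + |B|) ^ 2) * nu s) := by gcongr
      _ = ENNReal.ofReal ((γ + 1 / γ) * (1 + |B|) ^ 2) * nu s := by
          rw [← mul_assoc, ← ENNReal.ofReal_mul (by positivity)]
  calc ∫⁻ w, ∫⁻ c, s.indicator (1 : ℝ → ℝ≥0∞) (w + γ * c) ∂nu ∂ρ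
      ≤ ∫⁻ _w, ENNReal.ofReal ((γ + 1 / γ) * (1 + |B|) ^ 2) * nu s ∂ρ := lintegral_mono_ae h2
    _ = ENNReal.ofReal ((γ + 1 / γ) * (1 + |B|) ^ 2) * nu s := by simp

/-- the finite volume input for the law `background + γ · Cauchy`, at every energy -/
theorem openThm {γ : ℝ} (hγ : 0 < γ) (ρ : Measure ℝ) [IsProbabilityMeasure ρ] {B : ℝ}
    (hρ : ρ (Set.Icc (-B) B)ᶜ = 0) (E : ℝ) : OpenThm γ E ρ := by
  have hm : Measurable fun t : ℝ => t - E := by fun_prop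
  have : IsProbabilityMeasure (ρ.map fun t => t - E) :=
    Measure.isProbabilityMeasure_map hm.aemeasurable
  exact Op.openThm_of_LOC5 hγ ρ hρ
    (P365L5.LOC5w_of_static static hγ (ρ.map fun t => t - E) (Op.map_sub_bounded hρ E))

/-- the geometric threshold grows quadratically -/
theorem TH_le (C : ℝ≥0∞) {r : ℕ} (hr : 1 ≤ r) :
    P365X.TH C r ≤ 448 * C * (1 + 112 * C) * (r : ℝ≥0∞) ^ 2 := by
  unfold P365X.TH
  have h1 : ((8 * r + 20 : ℕ) : ℝ≥0∞) ≤ 28 * (r : ℝ≥0∞) := by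
    have : 8 * r + 20 ≤ 28 * r := by omega
    exact_mod_cast this
  have h2 : (1 : ℝ≥0∞) ≤ (r : ℝ≥0∞) := by exact_mod_cast hr
  calc 16 * C * (1 + 4 * C * ((8 * r + 20 : ℕ) : ℝ≥0∞)) * ((8 * r + 20 : ℕ) : ℝ≥0∞)
      ≤ 16 * C * ((r : ℝ≥0∞) + 4 * C * (28 * (r : ℝ≥0∞))) * (28 * (r : ℝ≥0∞)) := by gcongr
    _ = 448 * C * (1 + 112 * C) * (r : ℝ≥0∞) ^ 2 := by ring

/-- **exponential decay of the fractional moments at every energy**, for every law `m` dominated by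
`(1 + δ₀)` times the law `background + γ · Cauchy` and with density at least `c₀` on `[-1,1]` -/
theorem fmR_all {γ : ℝ} (hγ : 0 < γ) (ρ : Measure ℝ) [IsProbabilityMeasure ρ] {B : ℝ}
    (hρ : ρ (Set.Icc (-B) B)ᶜ = 0) {c₀ : ℝ} (hc₀ : 0 < c₀) :
    ∃ δ₀ : ℝ, 0 < δ₀ ∧ ∀ (m : Measure ℝ) [IsProbabilityMeasure m],
      m ≤ ENNReal.ofReal (1 + δ₀) • qlaw γ ρ →
      ENNReal.ofReal c₀ • (volume : Measure ℝ).restrict (Set.Icc (-1) 1) ≤ m →
      ∀ E : ℝ, P365L.InfB.FMboxR m E := by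
  obtain ⟨K, hK, hKq⟩ := qlaw_le_nu hγ ρ hρ
  obtain ⟨E₀, hE₀, HE⟩ := X5.fmboxR_large' (2 * K) c₀ hc₀
  obtain ⟨C, hC⟩ : ∃ C : ℝ≥0∞, C = P365X.CX (2 * K) c₀ (1 / 8) := ⟨_, rfl⟩
  have hCt : C ≠ ∞ := by
    rw [hC]
    exact P365X.CX_ne_top hc₀ (by norm_num)
  obtain ⟨D, hD⟩ : ∃ D : ℝ≥0∞, D = 448 * C * (1 + 112 * C) := ⟨_, rfl⟩
  have hDt : D ≠ ∞ := by
    rw [hD]
    finiteness
  have hD0 : 0 ≤ D.toReal := ENNReal.toReal_nonneg
  obtain ⟨δ₁, hδ₁, η₀, hη₀, R, H⟩ := tau_cover (p := 1 / 8) hγ (by norm_num) (by norm_num) E₀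
    (fun E _ => openThm hγ ρ hρ E) 2 (show 0 < 1 / (2 * (D.toReal + 1)) by positivity)
  refine ⟨min δ₁ 1, lt_min hδ₁ one_pos, fun m hm hdom hlow E => ?_⟩
  have h1 : m ≤ ENNReal.ofReal (2 * K) • nu := by
    refine hdom.trans ?_
    refine Measure.le_iff.2 fun s _ => ?_
    rw [Measure.smul_apply, Measure.smul_apply, smul_eq_mul, smul_eq_mul,
      ENNReal.ofReal_mul (by norm_num), mul_assoc]
    have h2 := hKq s
    rw [Measure.smul_apply, smul_eq_mul] at h2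
    refine mul_le_mul' (ENNReal.ofReal_le_ofReal ?_) h2
    have := min_le_right δ₁ 1
    linarith
  rcases le_total |E| E₀ with hE | hE
  · have h2 : m ≤ ENNReal.ofReal (1 + δ₁) • qlaw γ ρ := by
      refine hdom.trans ?_
      refine Measure.le_iff.2 fun s _ => ?_
      rw [Measure.smul_apply, Measure.smul_apply, smul_eq_mul, smul_eq_mul]
      refine mul_le_mul' (ENNReal.ofReal_le_ofReal ?_) le_rfl
      have := min_le_left δ₁ 1
      linarith
    obtain ⟨r, hr1, _, H1⟩ := H m hm h2 E hE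
    have hreg : P365L.X.Reg (2 * K) c₀ m := P365L.X.Reg.of_cauchy (by positivity) hc₀ h1 hlow
    refine P365X.FMboxR_of_tau hreg (s := 1 / 8) (by norm_num) (by norm_num) E r hη₀
      fun η hη hη1 => ?_
    have h3 := H1 η hη hη1
    have h4 := TH_le C hr1
    rw [← hD] at h4
    unfold P365X.THX
    rw [← hC]
    have h5 : ENNReal.ofReal ((r : ℝ) ^ 2) = (r : ℝ≥0∞) ^ 2 := by
      rw [ENNReal.ofReal_pow (Nat.cast_nonneg r), ENNReal.ofReal_natCast]
    rw [h5] at h3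
    calc P365X.TH C r * P365X.tau m (E + η * I) (1 / 8) r
        ≤ (D * (r : ℝ≥0∞) ^ 2) * P365X.tau m (E + η * I) (1 / 8) r := by gcongr
      _ = D * ((r : ℝ≥0∞) ^ 2 * P365X.tau m (E + η * I) (1 / 8) r) := by ring
      _ ≤ D * ENNReal.ofReal (1 / (2 * (D.toReal + 1))) := by gcongr
      _ = ENNReal.ofReal (D.toReal * (1 / (2 * (D.toReal + 1)))) := by
          rw [ENNReal.ofReal_mul hD0, ENNReal.ofReal_toReal hDt]
      _ ≤ ENNReal.ofReal (1 / 2) := by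
          refine ENNReal.ofReal_le_ofReal ?_
          rw [mul_one_div, div_le_div_iff₀ (by positivity) (by norm_num)]
          linarith
      _ = 1 / 2 := by
          rw [one_div, one_div, ENNReal.ofReal_inv_of_pos (by norm_num)]
          norm_num
  · exact HE m h1 hlow E hE

/-- **CORE**: pure point spectrum for every iid potential whose single-site law `m` is dominated by
`(1 + δ₀)` times the law of `background + γ · Cauchy` and has density at least `c₀` on `[-1,1]` -/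
theorem core {γ : ℝ} (hγ : 0 < γ) (ρ : Measure ℝ) [IsProbabilityMeasure ρ] {B : ℝ}
    (hρ : ρ (Set.Icc (-B) B)ᶜ = 0) {c₀ : ℝ} (hc₀ : 0 < c₀) :
    ∃ δ₀ : ℝ, 0 < δ₀ ∧ ∀ (m : Measure ℝ) [IsProbabilityMeasure m],
      m ≤ ENNReal.ofReal (1 + δ₀) • qlaw γ ρ →
      ENNReal.ofReal c₀ • (volume : Measure ℝ).restrict (Set.Icc (-1) 1) ≤ m →
      ∀ {Ω : Type*} [MeasurableSpace Ω] (P : Measure Ω) [IsProbabilityMeasure P]
        (V : Site → Ω → ℝ), (∀ x, Measurable (V x)) → iIndepFun V P → (∀ x, P.map (V x) = m) →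
        ∀ᵐ ω ∂P, Inf.EE (fun x => V x ω) = ⊤ ∧ ∀ (ψ : L2) (μ : Measure ℝ),
          IsSpectralMeasure (fun x => V x ω) ψ μ → ∃ S : Set ℝ, S.Countable ∧ μ Sᶜ = 0 := by
  obtain ⟨K, hK, hKq⟩ := qlaw_le_nu hγ ρ hρ
  obtain ⟨δ₀, hδ₀, H⟩ := fmR_all hγ ρ hρ hc₀
  refine ⟨δ₀, hδ₀, fun m hm hdom hlow Ω _ P _ V hV hi hl => ?_⟩
  have hvol : m ≤ ENNReal.ofReal ((1 + δ₀) * K) • (volume : Measure ℝ) := by
    refine Measure.le_iff.2 fun s hs => ?_
    have h1 := hdom s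
    have h2 := hKq s
    rw [Measure.smul_apply, smul_eq_mul] at h1 h2
    have h3 : nu s ≤ volume s := by
      have e : nu = volume.withDensity (cauchyPDF 0 1) :=
        cauchyMeasure_of_scale_ne_zero 0 one_ne_zero
      rw [e, withDensity_apply _ hs, ← setLIntegral_one]
      refine lintegral_mono fun t => ?_
      rw [cauchyPDF, ENNReal.ofReal_le_one, cauchyPDFReal_def]
      simp only [NNReal.coe_one, mul_one, sub_zero, one_pow]
      have h2 : π⁻¹ ≤ 1 := inv_le_one_of_one_le₀ (by linarith only [Real.pi_gt_three])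
      have h3 : (t ^ 2 + 1)⁻¹ ≤ 1 := inv_le_one_of_one_le₀ (by nlinarith only [sq_nonneg t])
      exact mul_le_one₀ h2 (by positivity) h3
    rw [Measure.smul_apply, smul_eq_mul, ENNReal.ofReal_mul (by positivity), mul_assoc]
    refine h1.trans ?_
    gcongr
    exact h2.trans (by gcongr)
  have h := P365L.InfB.pure_point_iid (K := (1 + δ₀) * K) (by positivity) hvol hV hi hl
    (H m hdom hlow)
  filter_upwards [h] with ω hω
  exact ⟨hω, fun ψ μ hμ => Inf.spectral_atomic hω hμ⟩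

end P365L.X7
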