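import Vale.Agent.P365.Comp.Cover

set_option linter.all false

/-!
# P365 / X7 / Law: facts on the law `background + γ · Cauchy` and its truncations.
-/

namespace P365L.X7

open MeasureTheory ProbabilityTheory Complex Filter
open P365L P365L.Comp
open scoped ENNReal Real

/-- the law `background + γ · Cauchy`, through its density -/
theorem qlaw_apply {γ : ℝ} (hγ : 0 < γ) (ρ : Measure ℝ) [IsProbabilityMeasure ρ] {s : Set ℝ}
    (hs : MeasurableSet s) :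
    qlaw γ ρ s = ∫⁻ w, ∫⁻ v in s, ENNReal.ofReal (π⁻¹ * γ * ((v - w) ^ 2 + γ ^ 2)⁻¹)
      ∂volume ∂ρ := by
  rw [qlaw, Measure.map_apply (measurable_qf γ) hs]
  have hmA : MeasurableSet ((fun t : ℝ × ℝ => t.1 + γ * t.2) ⁻¹' s) := measurable_qf γ hs
  have e1 : (ρ.prod nu) ((fun t : ℝ × ℝ => t.1 + γ * t.2) ⁻¹' s) =
      ∫⁻ w, ∫⁻ c, s.indicator (1 : ℝ → ℝ≥0∞) (w + γ * c) ∂nu ∂ρ := by
    rw [← lintegral_indicator_one hmA]
    exact lintegral_prod _ ((measurable_one.indicator hmA).aemeasurable)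
  rw [e1]
  refine lintegral_congr fun w => ?_
  have hf : Measurable (s.indicator (1 : ℝ → ℝ≥0∞)) := measurable_one.indicator hs
  have hf' : Measurable fun t : ℝ => s.indicator (1 : ℝ → ℝ≥0∞) (w + t) :=
    hf.comp (measurable_const_add w)
  rw [P365F.lintegral_scale hγ hf']
  have h1 := lintegral_add_left_eq_self (μ := (volume : Measure ℝ))
    (fun v => ENNReal.ofReal (π⁻¹ * γ * ((v - w) ^ 2 + γ ^ 2)⁻¹) *
      s.indicator (1 : ℝ → ℝ≥0∞) v) w
  simp only [add_sub_cancel_left] at h1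
  rw [h1, ← lintegral_indicator hs]
  refine lintegral_congr fun v => ?_
  by_cases hv : v ∈ s
  · rw [Set.indicator_of_mem hv, Set.indicator_of_mem hv, Pi.one_apply, mul_one]
  · rw [Set.indicator_of_notMem hv, Set.indicator_of_notMem hv, mul_zero]

/-- bounded density -/
theorem qlaw_le_volume {γ : ℝ} (hγ : 0 < γ) (ρ : Measure ℝ) [IsProbabilityMeasure ρ] :
    qlaw γ ρ ≤ ENNReal.ofReal (1 / (π * γ)) • (volume : Measure ℝ) := by
  refine Measure.le_iff.2 fun s hs => ?_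
  rw [Measure.smul_apply, smul_eq_mul, qlaw_apply hγ ρ hs]
  have h1 : ∀ w : ℝ, ∫⁻ v in s, ENNReal.ofReal (π⁻¹ * γ * ((v - w) ^ 2 + γ ^ 2)⁻¹) ≤
      ENNReal.ofReal (1 / (π * γ)) * volume s := by
    intro w
    rw [← setLIntegral_const]
    refine lintegral_mono fun v => ENNReal.ofReal_le_ofReal ?_
    have h2 : ((v - w) ^ 2 + γ ^ 2)⁻¹ ≤ (γ ^ 2)⁻¹ :=
      inv_anti₀ (by positivity) (by nlinarith [sq_nonneg (v - w)])
    calc π⁻¹ * γ * ((v - w) ^ 2 + γ ^ 2)⁻¹ ≤ π⁻¹ * γ * (γ ^ 2)⁻¹ :=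
          mul_le_mul_of_nonneg_left h2 (by positivity)
      _ = 1 / (π * γ) := by field_simp
  calc ∫⁻ w, ∫⁻ v in s, ENNReal.ofReal (π⁻¹ * γ * ((v - w) ^ 2 + γ ^ 2)⁻¹) ∂volume ∂ρ
      ≤ ∫⁻ _w, ENNReal.ofReal (1 / (π * γ)) * volume s ∂ρ := lintegral_mono h1
    _ = ENNReal.ofReal (1 / (π * γ)) * volume s := by simp

/-- the density is bounded below on every window -/
theorem le_qlaw {γ : ℝ} (hγ : 0 < γ) (ρ : Measure ℝ) [IsProbabilityMeasure ρ] {B : ℝ}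
    (hρ : ρ (Set.Icc (-B) B)ᶜ = 0) (b : ℝ) :
    ∃ c : ℝ, 0 < c ∧
      ENNReal.ofReal c • (volume : Measure ℝ).restrict (Set.Icc (-b) b) ≤ qlaw γ ρ := by
  refine ⟨π⁻¹ * γ * ((|b| + |B|) ^ 2 + γ ^ 2)⁻¹, by positivity, ?_⟩
  refine Measure.le_iff.2 fun s hs => ?_
  rw [Measure.smul_apply, smul_eq_mul, qlaw_apply hγ ρ hs, Measure.restrict_apply hs]
  have hae : ∀ᵐ w ∂ρ, |w| ≤ |B| := by
    have h1 : ∀ᵐ w ∂ρ, w ∈ Set.Icc (-B) B := by
      rw [ae_iff]
      exact hρ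
    filter_upwards [h1] with w hw
    rw [abs_le]
    exact ⟨by linarith [hw.1, le_abs_self B], by linarith [hw.2, le_abs_self B]⟩
  have h2 : ∀ᵐ w ∂ρ, ENNReal.ofReal (π⁻¹ * γ * ((|b| + |B|) ^ 2 + γ ^ 2)⁻¹) *
      volume (s ∩ Set.Icc (-b) b) ≤
      ∫⁻ v in s, ENNReal.ofReal (π⁻¹ * γ * ((v - w) ^ 2 + γ ^ 2)⁻¹) := by
    filter_upwards [hae] with w hw
    calc ENNReal.ofReal (π⁻¹ * γ * ((|b| + |B|) ^ 2 + γ ^ 2)⁻¹) * volume (s ∩ Set.Icc (-b) b)
        = ∫⁻ _v in s ∩ Set.Icc (-b) b,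
            ENNReal.ofReal (π⁻¹ * γ * ((|b| + |B|) ^ 2 + γ ^ 2)⁻¹) := by
          rw [setLIntegral_const]
      _ ≤ ∫⁻ v in s ∩ Set.Icc (-b) b,
            ENNReal.ofReal (π⁻¹ * γ * ((v - w) ^ 2 + γ ^ 2)⁻¹) := by
          refine setLIntegral_mono' (hs.inter measurableSet_Icc) fun v hv => ?_
          refine ENNReal.ofReal_le_ofReal (mul_le_mul_of_nonneg_left ?_ (by positivity))
          refine inv_anti₀ (by positivity) ?_
          have h3 : |v| ≤ |b| := by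
            have h4 := hv.2
            rw [abs_le]
            exact ⟨by linarith [h4.1, le_abs_self b], by linarith [h4.2, le_abs_self b]⟩
          have h5 : |v - w| ≤ |b| + |B| := (abs_sub v w).trans (by linarith)
          have h6 : (v - w) ^ 2 ≤ (|b| + |B|) ^ 2 := by
            rw [← sq_abs (v - w)]
            exact pow_le_pow_left₀ (abs_nonneg _) h5 2
          linarith
      _ ≤ ∫⁻ v in s, ENNReal.ofReal (π⁻¹ * γ * ((v - w) ^ 2 + γ ^ 2)⁻¹) :=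
          lintegral_mono_set Set.inter_subset_left
  calc ENNReal.ofReal (π⁻¹ * γ * ((|b| + |B|) ^ 2 + γ ^ 2)⁻¹) * volume (s ∩ Set.Icc (-b) b)
      = ∫⁻ _w, ENNReal.ofReal (π⁻¹ * γ * ((|b| + |B|) ^ 2 + γ ^ 2)⁻¹) *
          volume (s ∩ Set.Icc (-b) b) ∂ρ := by simp
    _ ≤ _ := lintegral_mono_ae h2

/-! ### truncations -/

/-- the truncated law -/
noncomputable def trunc (m : Measure ℝ) (X : ℝ) : Measure ℝ :=
  ProbabilityTheory.cond m (Set.Icc (-X) X)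

theorem qlaw_Icc_pos {γ : ℝ} (hγ : 0 < γ) (ρ : Measure ℝ) [IsProbabilityMeasure ρ] {B : ℝ}
    (hρ : ρ (Set.Icc (-B) B)ᶜ = 0) {X : ℝ} (hX : 0 < X) : qlaw γ ρ (Set.Icc (-X) X) ≠ 0 := by
  obtain ⟨c, hc, h⟩ := le_qlaw hγ ρ hρ X
  have h1 := Measure.le_iff'.1 h (Set.Icc (-X) X)
  rw [Measure.smul_apply, smul_eq_mul, Measure.restrict_apply_self, Real.volume_Icc] at h1
  have h2 : 0 < ENNReal.ofReal c * ENNReal.ofReal (X - -X) :=
    ENNReal.mul_pos (ENNReal.ofReal_pos.2 hc).ne' (ENNReal.ofReal_pos.2 (by linarith)).ne'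
  exact (h2.trans_le h1).ne'

theorem isProb_trunc {γ : ℝ} (hγ : 0 < γ) (ρ : Measure ℝ) [IsProbabilityMeasure ρ] {B : ℝ}
    (hρ : ρ (Set.Icc (-B) B)ᶜ = 0) {X : ℝ} (hX : 0 < X) :
    IsProbabilityMeasure (trunc (qlaw γ ρ) X) :=
  ProbabilityTheory.cond_isProbabilityMeasure (qlaw_Icc_pos hγ ρ hρ hX)

theorem trunc_compl (m : Measure ℝ) (X : ℝ) : trunc m X (Set.Icc (-X) X)ᶜ = 0 := by
  unfold trunc
  rw [ProbabilityTheory.cond_apply measurableSet_Icc, Set.inter_compl_self, measure_empty,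
    mul_zero]

/-- the truncated law dominates the original law inside the window -/
theorem le_trunc {m : Measure ℝ} [IsProbabilityMeasure m] {μ : Measure ℝ} (h : μ ≤ m) {b X : ℝ}
    (hμ : μ (Set.Icc (-b) b)ᶜ = 0) (hX : b ≤ X) : μ ≤ trunc m X := by
  refine Measure.le_iff.2 fun s hs => ?_
  unfold trunc
  rw [ProbabilityTheory.cond_apply measurableSet_Icc]
  have h1 : μ s ≤ μ (Set.Icc (-X) X ∩ s) := by
    have h2 : s ⊆ (Set.Icc (-X) X ∩ s) ∪ (Set.Icc (-b) b)ᶜ := by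
      intro x hx
      by_cases hxb : x ∈ Set.Icc (-b) b
      · exact Or.inl ⟨⟨by linarith [hxb.1], by linarith [hxb.2]⟩, hx⟩
      · exact Or.inr hxb
    calc μ s ≤ μ ((Set.Icc (-X) X ∩ s) ∪ (Set.Icc (-b) b)ᶜ) := measure_mono h2
      _ ≤ μ (Set.Icc (-X) X ∩ s) + μ (Set.Icc (-b) b)ᶜ := measure_union_le _ _
      _ = μ (Set.Icc (-X) X ∩ s) := by rw [hμ, add_zero]
  refine h1.trans ((Measure.le_iff'.1 h _).trans ?_)
  have h3 : (1 : ℝ≥0∞) ≤ (m (Set.Icc (-X) X))⁻¹ := by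
    rw [ENNReal.one_le_inv]
    exact prob_le_one
  calc m (Set.Icc (-X) X ∩ s) = 1 * m (Set.Icc (-X) X ∩ s) := (one_mul _).symm
    _ ≤ (m (Set.Icc (-X) X))⁻¹ * m (Set.Icc (-X) X ∩ s) := mul_le_mul_of_nonneg_right h3 zero_le

/-- lower bound of the truncated law on every window -/
theorem le_trunc_window {γ : ℝ} (hγ : 0 < γ) (ρ : Measure ℝ) [IsProbabilityMeasure ρ] {B : ℝ}
    (hρ : ρ (Set.Icc (-B) B)ᶜ = 0) (b : ℝ) :
    ∃ c : ℝ, 0 < c ∧ ∀ X : ℝ, b ≤ X →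
      ENNReal.ofReal c • (volume : Measure ℝ).restrict (Set.Icc (-b) b) ≤
        trunc (qlaw γ ρ) X := by
  obtain ⟨c, hc, h⟩ := le_qlaw hγ ρ hρ b
  refine ⟨c, hc, fun X hX => le_trunc h ?_ hX⟩
  rw [Measure.smul_apply, Measure.restrict_apply measurableSet_Icc.compl, Set.compl_inter_self,
    measure_empty, smul_zero]

/-- domination of the truncated law, large windows -/
theorem trunc_le (m : Measure ℝ) [IsProbabilityMeasure m] {δ : ℝ} (hδ : 0 < δ) :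
    ∃ X₀ : ℝ, 0 < X₀ ∧ ∀ X : ℝ, X₀ ≤ X → trunc m X ≤ ENNReal.ofReal (1 + δ) • m := by
  obtain ⟨X₀, h0, h⟩ := cond_Icc_le m hδ
  exact ⟨X₀, h0, fun X hX => (h X hX).2⟩

/-- bounded density of the truncated law -/
theorem trunc_le_volume {γ : ℝ} (hγ : 0 < γ) (ρ : Measure ℝ) [IsProbabilityMeasure ρ] {B : ℝ}
    (hρ : ρ (Set.Icc (-B) B)ᶜ = 0) {X : ℝ} (hX : 0 < X) :
    ∃ K : ℝ, 0 < K ∧ trunc (qlaw γ ρ) X ≤ ENNReal.ofReal K • (volume : Measure ℝ) := by
  have h0 := qlaw_Icc_pos hγ ρ hρ hX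
  obtain ⟨t, ht⟩ : ∃ t : ℝ, t = (qlaw γ ρ (Set.Icc (-X) X)).toReal := ⟨_, rfl⟩
  have ht0 : 0 < t := by
    rw [ht]
    exact ENNReal.toReal_pos h0 (measure_ne_top _ _)
  refine ⟨t⁻¹ * (1 / (π * γ)), by positivity, ?_⟩
  refine Measure.le_iff.2 fun s hs => ?_
  have h1 := Measure.le_iff'.1 (cond_le (m := qlaw γ ρ) (measurableSet_Icc (a := -X) (b := X))) s
  have h2 := Measure.le_iff'.1 (qlaw_le_volume hγ ρ) s
  rw [Measure.smul_apply, smul_eq_mul] at h1 h2 ⊢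
  refine h1.trans ((mul_le_mul_of_nonneg_left h2 zero_le).trans (le_of_eq ?_))
  rw [ENNReal.ofReal_mul (by positivity), ENNReal.ofReal_inv_of_pos ht0, ht,
    ENNReal.ofReal_toReal (measure_ne_top _ _), mul_assoc]

/-- domination by `(1 + δ)` gives total variation distance at most `δ` -/
theorem real_sub_le_of_dom {m m' : Measure ℝ} [IsProbabilityMeasure m] [IsProbabilityMeasure m']
    {δ : ℝ} (hδ : 0 ≤ δ) (h : m ≤ ENNReal.ofReal (1 + δ) • m') {B : Set ℝ}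
    (hB : MeasurableSet B) : |m.real B - m'.real B| ≤ δ := by
  have key : ∀ B : Set ℝ, m.real B ≤ m'.real B + δ := by
    intro B
    have h1 := Measure.le_iff'.1 h B
    rw [Measure.smul_apply, smul_eq_mul] at h1
    have h2 := ENNReal.toReal_mono (by finiteness) h1
    rw [ENNReal.toReal_mul, ENNReal.toReal_ofReal (by positivity)] at h2
    have h3 : m'.real B ≤ 1 := measureReal_le_one
    have h4 : (m B).toReal = m.real B := rfl
    have h5 : (m' B).toReal = m'.real B := rfl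
    rw [h4, h5] at h2
    nlinarith
  have h1 := key B
  have h2 := key Bᶜ
  rw [probReal_compl_eq_one_sub hB, probReal_compl_eq_one_sub hB] at h2
  rw [abs_le]
  constructor <;> linarith

/-- total variation distance between `uniform + κ · Cauchy` and uniform -/
theorem qlaw_tv {ε : ℝ} (hε : 0 < ε) : ∃ κ₀ : ℝ, 0 < κ₀ ∧ ∀ κ : ℝ, 0 < κ → κ ≤ κ₀ →
    ∀ B : Set ℝ, MeasurableSet B → |(qlaw κ unif).real B - unif.real B| ≤ ε := by
  obtain ⟨κ₀, hκ₀, H⟩ := tv_close hε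
  refine ⟨κ₀, hκ₀, fun κ h1 h2 B hB => ?_⟩
  have h3 := H (unif.prod nu) (fun t : ℝ × ℝ => t.1) (fun t : ℝ × ℝ => t.2) measurable_fst
    measurable_snd (indepFun_prod₀ aemeasurable_id aemeasurable_id) (by
      rw [Measure.map_fst_prod, measure_univ, one_smul]) (by
      rw [Measure.map_snd_prod, measure_univ, one_smul]) κ h1 h2 B hB
  have h4 : (unif.prod nu).real {ω : ℝ × ℝ | ω.1 + κ * ω.2 ∈ B} = (qlaw κ unif).real B := by
    unfold Measure.real
    rw [qlaw, Measure.map_apply (measurable_qf κ) hB]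
    rfl
  rwa [h4] at h3

/-- **total variation distance between the truncated law and the uniform law** -/
theorem trunc_tv {ε : ℝ} (hε : 0 < ε) : ∃ κ₀ : ℝ, 0 < κ₀ ∧ ∀ κ : ℝ, 0 < κ → κ ≤ κ₀ →
    ∃ X₁ : ℝ, 0 < X₁ ∧ ∀ X : ℝ, X₁ ≤ X → ∀ B : Set ℝ, MeasurableSet B →
      |(trunc (qlaw κ unif) X).real B - unif.real B| ≤ ε := by
  obtain ⟨κ₀, hκ₀, H⟩ := qlaw_tv (half_pos hε)
  refine ⟨κ₀, hκ₀, fun κ h1 h2 => ?_⟩
  obtain ⟨X₀, hX₀, hX⟩ := cond_Icc_le (qlaw κ unif) (half_pos hε)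
  refine ⟨X₀, hX₀, fun X hX1 B hB => ?_⟩
  haveI : IsProbabilityMeasure (trunc (qlaw κ unif) X) :=
    ProbabilityTheory.cond_isProbabilityMeasure (hX X hX1).1
  have h3 := real_sub_le_of_dom (m := trunc (qlaw κ unif) X) (half_pos hε).le (hX X hX1).2 hB
  have h4 := H κ h1 h2 B hB
  calc |(trunc (qlaw κ unif) X).real B - unif.real B|
      ≤ |(trunc (qlaw κ unif) X).real B - (qlaw κ unif).real B| +
        |(qlaw κ unif).real B - unif.real B| := abs_sub_le _ _ _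
    _ ≤ ε := by
        have : |(trunc (qlaw κ unif) X).real B - (qlaw κ unif).real B| ≤ ε / 2 := h3
        linarith

/-! ### scaling -/

/-- scaling of the law `background + γ · Cauchy` -/
theorem qlaw_map_mul (κ : ℝ) (ρ : Measure ℝ) [IsProbabilityMeasure ρ] (lam : ℝ) :
    (qlaw κ ρ).map (fun t => lam * t) = qlaw (lam * κ) (ρ.map fun t => lam * t) := by
  have hm : Measurable fun t : ℝ => lam * t := measurable_id.const_mul lam
  unfold qlaw
  have h1 : (ρ.map fun t => lam * t).prod nu =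
      (ρ.prod nu).map (Prod.map (fun t => lam * t) id) := by
    rw [← Measure.map_prod_map ρ nu hm measurable_id, Measure.map_id]
  rw [h1, Measure.map_map hm (measurable_qf κ),
    Measure.map_map (measurable_qf (lam * κ)) (hm.prodMap measurable_id)]
  congr 1
  funext t
  simp only [Function.comp_apply, Prod.map_fst, Prod.map_snd, id_eq]
  ring

end P365L.X7
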