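import Vale.Agent.P365.X7.Law

set_option linter.all false

/-!
# P365 / X7 / Mix: the laws `uniform on a slightly larger interval + small Cauchy` are mixtures
`(1 - p) • uniform + p • tau`.
-/

namespace P365L.X7

open MeasureTheory ProbabilityTheory Complex Filter
open P365L P365L.Comp
open scoped ENNReal Real Topology

/-- the uniform law on `[-b, b]` -/
noncomputable def unifb (b : ℝ) : Measure ℝ := ProbabilityTheory.cond volume (Set.Icc (-b) b)

theorem isProb_unifb {b : ℝ} (hb : 0 < b) : IsProbabilityMeasure (unifb b) := by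
  refine ProbabilityTheory.cond_isProbabilityMeasure_of_finite ?_ ?_
  · rw [Real.volume_Icc]
    exact (ENNReal.ofReal_pos.2 (by linarith)).ne'
  · rw [Real.volume_Icc]
    exact ENNReal.ofReal_ne_top

theorem unifb_apply {b : ℝ} (hb : 0 < b) (s : Set ℝ) :
    unifb b s = ENNReal.ofReal (1 / (2 * b)) * volume (Set.Icc (-b) b ∩ s) := by
  unfold unifb
  rw [ProbabilityTheory.cond_apply measurableSet_Icc, Real.volume_Icc,
    ← ENNReal.ofReal_inv_of_pos (by linarith : (0 : ℝ) < b - -b)]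
  congr 2
  rw [one_div]
  congr 1
  ring

theorem unifb_compl (b : ℝ) : unifb b (Set.Icc (-b) b)ᶜ = 0 := by
  unfold unifb
  rw [ProbabilityTheory.cond_apply measurableSet_Icc, Set.inter_compl_self, measure_empty,
    mul_zero]

theorem unifb_one : unifb 1 = cond volume (Set.Icc (-1 : ℝ) 1) := rfl

/-- large windows carry almost all the mass of the Cauchy law -/
theorem nu_window {a : ℝ} (ha : 0 < a) :
    ∃ R : ℝ, 0 < R ∧ ENNReal.ofReal (1 - a) ≤ nu (Set.Icc (-R) R) := by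
  have hmono : Monotone fun n : ℕ => Set.Icc (-(n : ℝ)) (n : ℝ) := by
    intro m n hmn
    have h : (m : ℝ) ≤ n := by exact_mod_cast hmn
    exact Set.Icc_subset_Icc (by linarith) h
  have hU : (⋃ n : ℕ, Set.Icc (-(n : ℝ)) (n : ℝ)) = Set.univ := by
    refine Set.eq_univ_of_forall fun x => ?_
    obtain ⟨n, hn⟩ := exists_nat_ge |x|
    exact Set.mem_iUnion.2 ⟨n, abs_le.1 hn⟩
  have h1 : Tendsto (fun n : ℕ => nu (Set.Icc (-(n : ℝ)) (n : ℝ))) atTop (𝓝 1) := by
    have h2 := tendsto_measure_iUnion_atTop (μ := nu) hmono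
    rw [hU, measure_univ] at h2
    exact h2
  have h3 : ENNReal.ofReal (1 - a) < 1 := by
    rw [ENNReal.ofReal_lt_one]
    linarith
  obtain ⟨n, hn⟩ := ((h1.eventually (lt_mem_nhds h3)).and (eventually_ge_atTop 1)).exists
  exact ⟨n, by have := hn.2; positivity, hn.1.le⟩

/-- **(M1)** the law `uniform on [-(1+a), 1+a]  +  κ · Cauchy` dominates `(1-p) · uniform` -/
theorem le_qlaw_mix {p : ℝ} (hp : 0 < p) (hp1 : p < 1) :
    ∃ a : ℝ, 0 < a ∧ a ≤ p ∧ ∃ κ₀ : ℝ, 0 < κ₀ ∧ ∀ κ : ℝ, 0 < κ → κ ≤ κ₀ →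
      ENNReal.ofReal (1 - p) • cond volume (Set.Icc (-1 : ℝ) 1) ≤
        qlaw κ (cond volume (Set.Icc (-(1 + a)) (1 + a))) := by
  set a : ℝ := p / 2 with ha
  have ha0 : 0 < a := by positivity
  obtain ⟨R, hR, hRn⟩ := nu_window ha0
  refine ⟨a, ha0, by rw [ha]; linarith, a / R, by positivity, ?_⟩
  intro κ hκ hκ0
  have h1a : (0 : ℝ) < 1 + a := by linarith
  have hP : IsProbabilityMeasure (unifb (1 + a)) := isProb_unifb h1a
  show ENNReal.ofReal (1 - p) • unifb 1 ≤ qlaw κ (unifb (1 + a))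
  refine Measure.le_iff.2 fun s hs => ?_
  rw [Measure.smul_apply, smul_eq_mul, unifb_apply one_pos, qlaw,
    Measure.map_apply (measurable_qf κ) hs]
  have hmA : MeasurableSet ((fun t : ℝ × ℝ => t.1 + κ * t.2) ⁻¹' s) := measurable_qf κ hs
  rw [Measure.prod_apply_symm hmA]
  have key : ∀ c ∈ Set.Icc (-R) R, ENNReal.ofReal (1 / (2 * (1 + a))) *
      volume (Set.Icc (-1 : ℝ) 1 ∩ s) ≤
      unifb (1 + a) ((fun w : ℝ => (w, c)) ⁻¹' ((fun t : ℝ × ℝ => t.1 + κ * t.2) ⁻¹' s)) := by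
    intro c hc
    rw [unifb_apply h1a]
    refine mul_le_mul_of_nonneg_left ?_ zero_le
    have hκc : |κ * c| ≤ a := by
      rw [abs_mul, abs_of_pos hκ]
      have h1 : |c| ≤ R := abs_le.2 hc
      calc κ * |c| ≤ (a / R) * R := mul_le_mul hκ0 h1 (abs_nonneg c) (by positivity)
        _ = a := by field_simp
    have h2 : volume (Set.Icc (-1 : ℝ) 1 ∩ s) =
        volume ((fun w : ℝ => w + κ * c) ⁻¹' (Set.Icc (-1 : ℝ) 1 ∩ s)) := by
      rw [measure_preimage_add_right]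
    rw [h2]
    refine measure_mono fun w hw => ?_
    have hw1 : w + κ * c ∈ Set.Icc (-1 : ℝ) 1 := hw.1
    have hw2 : w + κ * c ∈ s := hw.2
    have h3 := abs_le.1 hκc
    exact ⟨⟨by linarith [hw1.1, h3.2], by linarith [hw1.2, h3.1]⟩, hw2⟩
  calc ENNReal.ofReal (1 - p) * (ENNReal.ofReal (1 / (2 * 1)) * volume (Set.Icc (-1 : ℝ) 1 ∩ s))
      ≤ ENNReal.ofReal (1 - a) * (ENNReal.ofReal (1 / (2 * (1 + a))) *
        volume (Set.Icc (-1 : ℝ) 1 ∩ s)) := by
        rw [← mul_assoc, ← mul_assoc]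
        refine mul_le_mul_of_nonneg_right ?_ zero_le
        rw [← ENNReal.ofReal_mul (by linarith), ← ENNReal.ofReal_mul (by linarith)]
        refine ENNReal.ofReal_le_ofReal ?_
        rw [mul_one_div, mul_one_div, div_le_div_iff₀ (by norm_num) (by positivity)]
        nlinarith
    _ ≤ nu (Set.Icc (-R) R) * (ENNReal.ofReal (1 / (2 * (1 + a))) *
        volume (Set.Icc (-1 : ℝ) 1 ∩ s)) := mul_le_mul_of_nonneg_right hRn zero_le
    _ = ∫⁻ _c in Set.Icc (-R) R, (ENNReal.ofReal (1 / (2 * (1 + a))) *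
        volume (Set.Icc (-1 : ℝ) 1 ∩ s)) ∂nu := by
        rw [setLIntegral_const, mul_comm]
    _ ≤ ∫⁻ c in Set.Icc (-R) R, unifb (1 + a)
        ((fun w : ℝ => (w, c)) ⁻¹' ((fun t : ℝ × ℝ => t.1 + κ * t.2) ⁻¹' s)) ∂nu :=
        setLIntegral_mono' measurableSet_Icc key
    _ ≤ ∫⁻ c, unifb (1 + a)
        ((fun w : ℝ => (w, c)) ⁻¹' ((fun t : ℝ × ℝ => t.1 + κ * t.2) ⁻¹' s)) ∂nu :=
        setLIntegral_le_lintegral _ _

/-- (M1) for the truncated laws -/
theorem le_trunc_mix {p : ℝ} (hp1 : p < 1) {m : Measure ℝ} [IsProbabilityMeasure m]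
    (h : ENNReal.ofReal (1 - p) • cond volume (Set.Icc (-1 : ℝ) 1) ≤ m) {X : ℝ} (hX : 1 ≤ X) :
    ENNReal.ofReal (1 - p) • cond volume (Set.Icc (-1 : ℝ) 1) ≤ trunc m X := by
  refine le_trunc h ?_ hX
  rw [Measure.smul_apply]
  have := unifb_compl 1
  unfold unifb at this
  rw [this, smul_zero]

/-- **(M2)** a probability law above `(1-p) • U` is a mixture `(1-p) • U + p • tau` -/
theorem exists_mix {p : ℝ} (hp : 0 < p) (hp1 : p < 1) (U m : Measure ℝ) [IsProbabilityMeasure U]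
    [IsProbabilityMeasure m] (h : ENNReal.ofReal (1 - p) • U ≤ m) :
    ∃ tau : Measure ℝ, IsProbabilityMeasure tau ∧
      m = ENNReal.ofReal (1 - p) • U + ENNReal.ofReal p • tau ∧
      tau ≤ (ENNReal.ofReal p)⁻¹ • m := by
  have hp0 : ENNReal.ofReal p ≠ 0 := (ENNReal.ofReal_pos.2 hp).ne'
  have hpt : ENNReal.ofReal p ≠ ⊤ := ENNReal.ofReal_ne_top
  have hfin : IsFiniteMeasure (ENNReal.ofReal (1 - p) • U) :=
    Measure.smul_finite U ENNReal.ofReal_ne_top
  set d : Measure ℝ := m - ENNReal.ofReal (1 - p) • U with hd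
  have hadd : d + ENNReal.ofReal (1 - p) • U = m := Measure.sub_add_cancel_of_le h
  have hdm : ENNReal.ofReal p • ((ENNReal.ofReal p)⁻¹ • d) = d := by
    rw [smul_smul, ENNReal.mul_inv_cancel hp0 hpt, one_smul]
  have huniv : d Set.univ = ENNReal.ofReal p := by
    have h1 : d Set.univ + ENNReal.ofReal (1 - p) = 1 := by
      have h2 := congrArg (fun μ : Measure ℝ => μ Set.univ) hadd
      simpa using h2
    have h3 : (1 : ℝ≥0∞) = ENNReal.ofReal p + ENNReal.ofReal (1 - p) := by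
      rw [← ENNReal.ofReal_add hp.le (by linarith)]
      simp
    rw [h3] at h1
    exact (ENNReal.add_left_inj ENNReal.ofReal_ne_top).1 h1
  refine ⟨(ENNReal.ofReal p)⁻¹ • d, ⟨?_⟩, ?_, ?_⟩
  · rw [Measure.smul_apply, smul_eq_mul, huniv, ENNReal.inv_mul_cancel hp0 hpt]
  · rw [hdm, add_comm]
    exact hadd.symm
  · have h4 : d ≤ m := Measure.sub_le
    exact Measure.le_iff'.2 fun s => by
      rw [Measure.smul_apply, Measure.smul_apply]
      exact mul_le_mul_of_nonneg_left (Measure.le_iff'.1 h4 s) zero_le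

/-- bounded density passes to `tau` -/
theorem mix_le_volume {p : ℝ} (hp : 0 < p) {tau m : Measure ℝ}
    (h : tau ≤ (ENNReal.ofReal p)⁻¹ • m) {K : ℝ} (hm : m ≤ ENNReal.ofReal K • volume) :
    tau ≤ ENNReal.ofReal (K / p) • (volume : Measure ℝ) := by
  refine h.trans (Measure.le_iff'.2 fun s => ?_)
  rw [Measure.smul_apply, Measure.smul_apply, smul_eq_mul, smul_eq_mul,
    ENNReal.ofReal_div_of_pos hp, div_eq_mul_inv, mul_comm (ENNReal.ofReal K), mul_assoc]
  exact mul_le_mul_of_nonneg_left (Measure.le_iff'.1 hm s) zero_le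

/-- compact support passes to `tau` -/
theorem mix_null {p : ℝ} {tau m : Measure ℝ} (h : tau ≤ (ENNReal.ofReal p)⁻¹ • m) {s : Set ℝ}
    (hm : m s = 0) : tau s = 0 := by
  have h1 := Measure.le_iff'.1 h s
  rw [Measure.smul_apply, hm, smul_zero] at h1
  exact le_antisymm h1 zero_le

end P365L.X7
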