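import Vale.Agent.P365.X7.Core

set_option linter.all false

/-!
# P365 / X7 / Unif: localization at every coupling `λ ≥ λ₁` for ONE single-site law.
-/

namespace P365L.X7

open MeasureTheory ProbabilityTheory Complex Filter Topology
open P365L P365L.Comp
open scoped ENNReal Real

theorem meas_mul (l : ℝ) : Measurable fun t : ℝ => l * t := measurable_const_mul l

/-- scaling the law `background + κ · Cauchy` -/
theorem qlaw_map (l κ : ℝ) (ρ : Measure ℝ) [IsProbabilityMeasure ρ] :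
    (qlaw κ ρ).map (fun t => l * t) = qlaw (l * κ) (ρ.map fun t => l * t) := by
  have h1 : (ρ.map fun t => l * t).prod nu =
      (ρ.prod nu).map (Prod.map (fun t : ℝ => l * t) id) := by
    rw [← Measure.map_prod_map _ _ (meas_mul l) measurable_id, Measure.map_id]
  unfold qlaw
  rw [h1, Measure.map_map (meas_mul l) (measurable_qf κ),
    Measure.map_map (measurable_qf _) ((meas_mul l).prodMap measurable_id)]
  congr 1
  funext t
  simp only [Function.comp, Prod.map, id]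
  ring

/-- the factor for a change of scale by `τ` -/
noncomputable def Dfac (κ B τ : ℝ) : ℝ := max τ τ⁻¹ * (1 + |τ - 1| * |B| / (κ * τ)) ^ 2

theorem qlaw_scale_le {κ : ℝ} (hκ : 0 < κ) (ρ : Measure ℝ) [IsProbabilityMeasure ρ] {B : ℝ}
    (hρ : ρ (Set.Icc (-B) B)ᶜ = 0) {τ : ℝ} (hτ : 0 < τ) :
    (qlaw κ ρ).map (fun t => τ * t) ≤ ENNReal.ofReal (Dfac κ B τ) • qlaw κ ρ := by
  refine Measure.le_iff.2 fun s hs => ?_
  rw [Measure.map_apply (meas_mul τ) hs, Measure.smul_apply, smul_eq_mul, qlaw,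
    Measure.map_apply (measurable_qf κ) (meas_mul τ hs), Measure.map_apply (measurable_qf κ) hs]
  have e1 : ∀ A : Set (ℝ × ℝ), MeasurableSet A → (ρ.prod nu) A =
      ∫⁻ w, ∫⁻ c, A.indicator 1 (w, c) ∂nu ∂ρ := by
    intro A hA
    rw [← lintegral_indicator_one hA]
    exact lintegral_prod _ ((measurable_one.indicator hA).aemeasurable)
  have hmA : MeasurableSet ((fun t : ℝ × ℝ => t.1 + κ * t.2) ⁻¹' s) := measurable_qf κ hs
  have hmB : MeasurableSet ((fun t : ℝ × ℝ => t.1 + κ * t.2) ⁻¹' ((fun t : ℝ => τ * t) ⁻¹' s)) :=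
    measurable_qf κ (meas_mul τ hs)
  rw [e1 _ hmA, e1 _ hmB]
  have hmA' : Measurable fun w : ℝ => ∫⁻ c, ((fun t : ℝ × ℝ => t.1 + κ * t.2) ⁻¹' s).indicator 1
      (w, c) ∂nu := by
    have h1 : Measurable fun q : ℝ × ℝ => ((fun t : ℝ × ℝ => t.1 + κ * t.2) ⁻¹' s).indicator
      (1 : ℝ × ℝ → ℝ≥0∞) q := measurable_one.indicator hmA
    exact h1.lintegral_prod_right'
  rw [← lintegral_const_mul _ hmA']
  have hae : ∀ᵐ w ∂ρ, |w| ≤ |B| := by
    have h1 : ∀ᵐ w ∂ρ, w ∈ Set.Icc (-B) B := by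
      rw [ae_iff]
      exact hρ
    filter_upwards [h1] with w hw
    rw [abs_le]
    exact ⟨by linarith [hw.1, le_abs_self B], by linarith [hw.2, le_abs_self B]⟩
  refine lintegral_mono_ae ?_
  filter_upwards [hae] with w hw
  have hf : Measurable (s.indicator (1 : ℝ → ℝ≥0∞)) := measurable_one.indicator hs
  have hf' : Measurable fun t : ℝ => s.indicator (1 : ℝ → ℝ≥0∞) (w + t) :=
    hf.comp (measurable_const_add w)
  have hf2 : Measurable fun c : ℝ => s.indicator (1 : ℝ → ℝ≥0∞) (w + (τ * κ) * c) :=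
    hf'.comp (measurable_const_mul _)
  have hτκ : 0 < τ * κ := by positivity
  -- the shift
  have h2 := lintegral_shift_le ((τ - 1) * w / (τ * κ)) hf2
  have h3 : ∀ c : ℝ, w + τ * κ * (c + (τ - 1) * w / (τ * κ)) = τ * (w + κ * c) := by
    intro c
    field_simp
    ring
  simp only [h3] at h2
  -- the scale
  have h4 : ∫⁻ c, s.indicator (1 : ℝ → ℝ≥0∞) (w + (τ * κ) * c) ∂nu ≤
      ENNReal.ofReal (max τ τ⁻¹) * ∫⁻ c, s.indicator (1 : ℝ → ℝ≥0∞) (w + κ * c) ∂nu := by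
    have h5 := P365F.lintegral_scale hτκ hf'
    have h6 := P365F.lintegral_scale hκ hf'
    rw [h5, h6, ← lintegral_const_mul _ (by fun_prop)]
    refine lintegral_mono fun x => ?_
    rw [← mul_assoc (ENNReal.ofReal (max τ τ⁻¹)), ← ENNReal.ofReal_mul (by positivity)]
    refine mul_le_mul_of_nonneg_right (ENNReal.ofReal_le_ofReal ?_) zero_le
    have h7 : (τ * κ) * (x ^ 2 + (τ * κ) ^ 2)⁻¹ ≤ max τ τ⁻¹ * (κ * (x ^ 2 + κ ^ 2)⁻¹) := by
      rcases le_total 1 τ with h | h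
      · calc (τ * κ) * (x ^ 2 + (τ * κ) ^ 2)⁻¹ ≤ (τ * κ) * (x ^ 2 + κ ^ 2)⁻¹ := by
              refine mul_le_mul_of_nonneg_left (inv_anti₀ (by positivity) ?_) hτκ.le
              have : κ ≤ τ * κ := le_mul_of_one_le_left hκ.le h
              gcongr
          _ = τ * (κ * (x ^ 2 + κ ^ 2)⁻¹) := by ring
          _ ≤ max τ τ⁻¹ * (κ * (x ^ 2 + κ ^ 2)⁻¹) :=
              mul_le_mul_of_nonneg_right (le_max_left _ _) (by positivity)
      · calc (τ * κ) * (x ^ 2 + (τ * κ) ^ 2)⁻¹ ≤ (τ * κ) * (τ ^ 2 * (x ^ 2 + κ ^ 2))⁻¹ := by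
              refine mul_le_mul_of_nonneg_left (inv_anti₀ (by positivity) ?_) hτκ.le
              have : τ ^ 2 ≤ 1 := pow_le_one₀ hτ.le h
              nlinarith [sq_nonneg x]
          _ = τ⁻¹ * (κ * (x ^ 2 + κ ^ 2)⁻¹) := by
              field_simp
          _ ≤ max τ τ⁻¹ * (κ * (x ^ 2 + κ ^ 2)⁻¹) :=
              mul_le_mul_of_nonneg_right (le_max_right _ _) (by positivity)
    calc π⁻¹ * (τ * κ) * (x ^ 2 + (τ * κ) ^ 2)⁻¹
        = π⁻¹ * ((τ * κ) * (x ^ 2 + (τ * κ) ^ 2)⁻¹) := by ring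
      _ ≤ π⁻¹ * (max τ τ⁻¹ * (κ * (x ^ 2 + κ ^ 2)⁻¹)) := by gcongr
      _ = max τ τ⁻¹ * (π⁻¹ * κ * (x ^ 2 + κ ^ 2)⁻¹) := by ring
  have h8 : (1 + |(τ - 1) * w / (τ * κ)|) ^ 2 ≤ (1 + |τ - 1| * |B| / (κ * τ)) ^ 2 := by
    rw [abs_div, abs_mul, abs_of_pos hτκ, mul_comm τ κ]
    gcongr
  calc ∫⁻ c, ((fun t : ℝ × ℝ => t.1 + κ * t.2) ⁻¹' ((fun t : ℝ => τ * t) ⁻¹' s)).indicator
        (1 : ℝ × ℝ → ℝ≥0∞) (w, c) ∂nu
      = ∫⁻ c, s.indicator (1 : ℝ → ℝ≥0∞) (τ * (w + κ * c)) ∂nu := rfl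
    _ ≤ ENNReal.ofReal ((1 + |(τ - 1) * w / (τ * κ)|) ^ 2) *
        ∫⁻ c, s.indicator (1 : ℝ → ℝ≥0∞) (w + (τ * κ) * c) ∂nu := h2
    _ ≤ ENNReal.ofReal ((1 + |τ - 1| * |B| / (κ * τ)) ^ 2) *
        (ENNReal.ofReal (max τ τ⁻¹) * ∫⁻ c, s.indicator (1 : ℝ → ℝ≥0∞) (w + κ * c) ∂nu) :=
        mul_le_mul' (ENNReal.ofReal_le_ofReal h8) h4
    _ = ENNReal.ofReal (Dfac κ B τ) * ∫⁻ c, s.indicator (1 : ℝ → ℝ≥0∞) (w + κ * c) ∂nu := by
        rw [← mul_assoc, ← ENNReal.ofReal_mul (by positivity), Dfac, mul_comm (max τ τ⁻¹)]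
    _ = _ := rfl

theorem Dfac_near (κ B : ℝ) (hκ : 0 < κ) {x : ℝ} (hx : 0 < x) :
    ∀ᶠ τ in 𝓝 (1 : ℝ), Dfac κ B τ ≤ 1 + x := by
  have hc : ContinuousAt (Dfac κ B) 1 := by
    unfold Dfac
    have h1 : ContinuousAt (fun τ : ℝ => τ⁻¹) 1 := continuousAt_inv₀ one_ne_zero
    have h2 : ContinuousAt (fun τ : ℝ => max τ τ⁻¹) 1 := continuousAt_id.max h1
    have h3 : ContinuousAt (fun τ : ℝ => |τ - 1| * |B| / (κ * τ)) 1 := by
      refine ContinuousAt.div ?_ ?_ (by simpa using hκ.ne')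
      · fun_prop
      · fun_prop
    exact h2.mul ((continuousAt_const.add h3).pow 2)
  have h1 : Dfac κ B 1 = 1 := by simp [Dfac]
  have h2 := hc.eventually (ge_mem_nhds (show Dfac κ B 1 < 1 + x by rw [h1]; linarith))
  exact h2

/-- scaling the lower bound -/
theorem low_scale {m : Measure ℝ} {b c L l : ℝ} (hc : 0 < c)
    (hlow : ENNReal.ofReal c • (volume : Measure ℝ).restrict (Set.Icc (-b) b) ≤ m)
    (hl : 0 < l) (hlb : 1 ≤ l * b) (hL : l ≤ L) :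
    ENNReal.ofReal (c / L) • (volume : Measure ℝ).restrict (Set.Icc (-1) 1) ≤
      m.map (fun t => l * t) := by
  refine Measure.le_iff.2 fun s hs => ?_
  have h1 := hlow ((fun t : ℝ => l * t) ⁻¹' s)
  rw [Measure.map_apply (meas_mul l) hs]
  refine le_trans ?_ h1
  rw [Measure.smul_apply, Measure.smul_apply, smul_eq_mul, smul_eq_mul,
    Measure.restrict_apply hs, Measure.restrict_apply (meas_mul l hs)]
  have h2 : (fun t : ℝ => l * t) ⁻¹' (s ∩ Set.Icc (-1) 1) ⊆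
      (fun t : ℝ => l * t) ⁻¹' s ∩ Set.Icc (-b) b := by
    intro t ht
    obtain ⟨ht1, ht2⟩ := ht
    refine ⟨ht1, ?_⟩
    have h3 : l * t ∈ Set.Icc (-1 : ℝ) 1 := ht2
    constructor
    · by_contra hcon
      push Not at hcon
      have : l * t < l * (-b) := mul_lt_mul_of_pos_left hcon hl
      have := h3.1
      linarith
    · by_contra hcon
      push Not at hcon
      have : l * b < l * t := mul_lt_mul_of_pos_left hcon hl
      have := h3.2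
      linarith
  refine le_trans ?_ (mul_le_mul_right (measure_mono h2) _)
  rw [Real.volume_preimage_mul_left hl.ne', ← mul_assoc, ← ENNReal.ofReal_mul hc.le,
    abs_of_pos (inv_pos.2 hl)]
  refine mul_le_mul_left (ENNReal.ofReal_le_ofReal ?_) _
  rw [← div_eq_mul_inv]
  exact div_le_div_of_nonneg_left hc.le hl hL

theorem smul_le_smul_ofReal {m q : Measure ℝ} {a a' : ℝ} (h : m ≤ ENNReal.ofReal a • q)
    (ha : a ≤ a') : m ≤ ENNReal.ofReal a' • q := by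
  refine h.trans ?_
  refine Measure.le_iff.2 fun s _ => ?_
  rw [Measure.smul_apply, Measure.smul_apply, smul_eq_mul, smul_eq_mul]
  exact mul_le_mul' (ENNReal.ofReal_le_ofReal ha) le_rfl

/-- the scaled law is dominated -/
theorem map_dom {κ : ℝ} (hκ : 0 < κ) (ρ : Measure ℝ) [IsProbabilityMeasure ρ] {B : ℝ}
    (hρ : ρ (Set.Icc (-B) B)ᶜ = 0) {l₀ l x δ : ℝ} (hl₀ : 0 < l₀) (hl : 0 < l) (hx : 0 < x)
    (hx1 : x ≤ 1) (hxδ : 3 * x ≤ δ) (hD : Dfac κ B (l / l₀) ≤ 1 + x) {m : Measure ℝ}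
    (hdom : m ≤ ENNReal.ofReal (1 + x) • qlaw κ ρ) :
    m.map (fun t => l * t) ≤
      ENNReal.ofReal (1 + δ) • qlaw (l₀ * κ) (ρ.map fun t => l₀ * t) := by
  have e1 : (fun t : ℝ => l * t) = (fun t => l₀ * t) ∘ fun t => (l / l₀) * t := by
    funext t
    simp only [Function.comp]
    field_simp
  rw [e1, ← Measure.map_map (meas_mul l₀) (meas_mul _), ← qlaw_map]
  have h1 : m.map (fun t => (l / l₀) * t) ≤ ENNReal.ofReal (1 + δ) • qlaw κ ρ := by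
    refine (Measure.map_mono hdom (meas_mul _)).trans ?_
    rw [Measure.map_smul]
    have h2 := qlaw_scale_le hκ ρ hρ (τ := l / l₀) (by positivity)
    refine Measure.le_iff.2 fun s _ => ?_
    have h3 := h2 s
    rw [Measure.smul_apply, smul_eq_mul] at h3
    rw [Measure.smul_apply, Measure.smul_apply, smul_eq_mul, smul_eq_mul]
    calc ENNReal.ofReal (1 + x) * ((qlaw κ ρ).map (fun t => (l / l₀) * t)) s
        ≤ ENNReal.ofReal (1 + x) * (ENNReal.ofReal (1 + x) * qlaw κ ρ s) := by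
          refine mul_le_mul_right (h3.trans ?_) _
          exact mul_le_mul_left (ENNReal.ofReal_le_ofReal hD) _
      _ = ENNReal.ofReal ((1 + x) * (1 + x)) * qlaw κ ρ s := by
          rw [← mul_assoc, ← ENNReal.ofReal_mul (by positivity)]
      _ ≤ ENNReal.ofReal (1 + δ) * qlaw κ ρ s := by
          refine mul_le_mul_left (ENNReal.ofReal_le_ofReal ?_) _
          nlinarith
  refine (Measure.map_mono h1 (meas_mul _)).trans (le_of_eq ?_)
  rw [Measure.map_smul]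

theorem bounded_map {ρ : Measure ℝ} {B : ℝ} (hρ : ρ (Set.Icc (-B) B)ᶜ = 0) {l : ℝ}
    (hl : 0 < l) : (ρ.map fun t => l * t) (Set.Icc (-(l * B)) (l * B))ᶜ = 0 := by
  rw [Measure.map_apply (meas_mul l) measurableSet_Icc.compl]
  refine measure_mono_null ?_ hρ
  intro t ht ht'
  refine ht ⟨?_, ?_⟩
  · have := mul_le_mul_of_nonneg_left ht'.1 hl.le
    simp only
    linarith
  · exact mul_le_mul_of_nonneg_left ht'.2 hl.le

/-- **uniform localization on a compact interval of couplings** -/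
theorem fmR_compact {κ : ℝ} (hκ : 0 < κ) (ρ : Measure ℝ) [IsProbabilityMeasure ρ] {B : ℝ}
    (hρ : ρ (Set.Icc (-B) B)ᶜ = 0) {b c : ℝ} (hc : 0 < c) {l₁ L : ℝ} (hl₁ : 0 < l₁)
    (hb : 1 ≤ l₁ * b) :
    ∃ δ₀ : ℝ, 0 < δ₀ ∧ ∀ l : ℝ, l₁ ≤ l → l ≤ L → ∀ (m : Measure ℝ) [IsProbabilityMeasure m],
      m ≤ ENNReal.ofReal (1 + δ₀) • qlaw κ ρ →
      ENNReal.ofReal c • (volume : Measure ℝ).restrict (Set.Icc (-b) b) ≤ m →
      ∀ E : ℝ, P365L.InfB.FMboxR (m.map fun t => l * t) E := by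
  have hb0 : 0 < b := by
    by_contra h
    push Not at h
    nlinarith
  have key : ∃ δ₀ : ℝ, 0 < δ₀ ∧ ∀ l ∈ Set.Icc l₁ L, l₁ ≤ l → l ≤ L →
      ∀ (m : Measure ℝ) [IsProbabilityMeasure m],
      m ≤ ENNReal.ofReal (1 + δ₀) • qlaw κ ρ →
      ENNReal.ofReal c • (volume : Measure ℝ).restrict (Set.Icc (-b) b) ≤ m →
      ∀ E : ℝ, P365L.InfB.FMboxR (m.map fun t => l * t) E := by
    refine isCompact_Icc.induction_on (p := fun S : Set ℝ => ∃ δ₀ : ℝ, 0 < δ₀ ∧ ∀ l ∈ S,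
      l₁ ≤ l → l ≤ L → ∀ (m : Measure ℝ) [IsProbabilityMeasure m],
      m ≤ ENNReal.ofReal (1 + δ₀) • qlaw κ ρ →
      ENNReal.ofReal c • (volume : Measure ℝ).restrict (Set.Icc (-b) b) ≤ m →
      ∀ E : ℝ, P365L.InfB.FMboxR (m.map fun t => l * t) E) ?_ ?_ ?_ ?_
    · exact ⟨1, one_pos, fun l hl => absurd hl (Set.notMem_empty l)⟩
    · rintro s t hst ⟨δ, hδ, H⟩
      exact ⟨δ, hδ, fun l hl => H l (hst hl)⟩
    · rintro s t ⟨δ, hδ, H⟩ ⟨δ', hδ', H'⟩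
      refine ⟨min δ δ', lt_min hδ hδ', fun l hl h1 h2 m hm hdom hlow E => ?_⟩
      rcases hl with hl | hl
      · exact H l hl h1 h2 m (smul_le_smul_ofReal hdom (by linarith [min_le_left δ δ'])) hlow E
      · exact H' l hl h1 h2 m (smul_le_smul_ofReal hdom (by linarith [min_le_right δ δ'])) hlow E
    · intro l₀ hl₀
      have hl₀p : 0 < l₀ := hl₁.trans_le hl₀.1
      have hLp : 0 < L := hl₀p.trans_le hl₀.2
      have : IsProbabilityMeasure (ρ.map fun t => l₀ * t) :=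
        Measure.isProbabilityMeasure_map (meas_mul l₀).aemeasurable
      obtain ⟨δ, hδ, H⟩ := fmR_all (γ := l₀ * κ) (by positivity) (ρ.map fun t => l₀ * t)
        (bounded_map hρ hl₀p) (c₀ := c / L) (by positivity)
      have hx : 0 < min 1 (δ / 3) := lt_min one_pos (by positivity)
      have h1 : ∀ᶠ l in 𝓝 l₀, Dfac κ B (l / l₀) ≤ 1 + min 1 (δ / 3) := by
        have h2 : Tendsto (fun l : ℝ => l / l₀) (𝓝 l₀) (𝓝 1) := by
          have : Tendsto (fun l : ℝ => l / l₀) (𝓝 l₀) (𝓝 (l₀ / l₀)) :=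
            (continuous_id.div_const l₀).tendsto l₀
          rwa [div_self hl₀p.ne'] at this
        exact h2.eventually (Dfac_near κ B hκ hx)
      refine ⟨_, mem_nhdsWithin_of_mem_nhds h1, min 1 (δ / 3), hx,
        fun l hl h2 h3 m hm hdom hlow E => ?_⟩
      have hlp : 0 < l := hl₁.trans_le h2
      have : IsProbabilityMeasure (m.map fun t => l * t) :=
        Measure.isProbabilityMeasure_map (meas_mul l).aemeasurable
      refine H (m.map fun t => l * t) ?_ ?_ E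
      · refine map_dom hκ ρ hρ hl₀p hlp hx (min_le_left _ _) ?_ hl hdom
        have := min_le_right 1 (δ / 3)
        linarith
      · exact low_scale hc hlow hlp (hb.trans (by gcongr)) h3
  obtain ⟨δ₀, hδ₀, H⟩ := key
  exact ⟨δ₀, hδ₀, fun l h1 h2 => H l ⟨h1, h2⟩ h1 h2⟩

/-! ### strong disorder -/

theorem strong_dec {C0 c0 : ℝ} {m : Measure ℝ} (h : P365L.X.Reg C0 c0 m) {l : ℝ} (hl : 0 < l)
    (hL : 5 * P365L.X.Cu C0 (1 / 4) ≤ P365L.X.cl c0 * ENNReal.ofReal (l ^ (1 / 4 : ℝ))) (E : ℝ)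
    {a : ℂ} (ha : 0 < a.im) :
    5 * ∫⁻ t : ℝ, ENNReal.ofReal (‖(t : ℂ) - a‖ ^ (-(1 / 4 : ℝ))) ∂(m.map fun t => l * t) ≤
      ∫⁻ t : ℝ, ENNReal.ofReal (|t - E| ^ (1 / 4 : ℝ) * ‖(t : ℂ) - a‖ ^ (-(1 / 4 : ℝ)))
        ∂(m.map fun t => l * t) := by
  have hq : (0 : ℝ) < 1 / 4 := by norm_num
  have hq1 : (1 / 4 : ℝ) < 1 / 2 := by norm_num
  have hm1 : Measurable fun t : ℝ => ENNReal.ofReal (‖(t : ℂ) - a‖ ^ (-(1 / 4 : ℝ))) := by
    fun_prop
  have hm2 : Measurable fun t : ℝ =>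
      ENNReal.ofReal (|t - E| ^ (1 / 4 : ℝ) * ‖(t : ℂ) - a‖ ^ (-(1 / 4 : ℝ))) := by
    fun_prop
  have hne : ∀ t : ℝ, -a + t • (l : ℂ) ≠ 0 := by
    intro t h0
    have h1 := congrArg Complex.im h0
    simp at h1
    exact ha.ne' h1
  have hy : ∀ t : ℝ, ‖((l * t : ℝ) : ℂ) - a‖ = ‖-a + t • (l : ℂ)‖ := by
    intro t
    congr 1
    rw [Complex.real_smul]
    push_cast
    ring
  have hx : ∀ t : ℝ, |l * t - E| = ‖(-(E : ℂ)) + t • (l : ℂ)‖ := by
    intro t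
    rw [← Real.norm_eq_abs, ← Complex.norm_real]
    congr 1
    rw [Complex.real_smul]
    push_cast
    ring
  rw [lintegral_map hm1 (meas_mul l), lintegral_map hm2 (meas_mul l)]
  have e1 : ∀ t : ℝ, ENNReal.ofReal (‖((l * t : ℝ) : ℂ) - a‖ ^ (-(1 / 4 : ℝ))) =
      (‖(1 : ℂ) + t • (0 : ℂ)‖ₑ / ‖-a + t • (l : ℂ)‖ₑ) ^ (1 / 4 : ℝ) := by
    intro t
    rw [← P365L.X.ofReal_ratio (hne t) hq.le, hy t, Real.div_rpow (norm_nonneg _) (norm_nonneg _),
      Real.rpow_neg (norm_nonneg _)]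
    congr 1
    simp
  have e2 : ∀ t : ℝ, ENNReal.ofReal (|l * t - E| ^ (1 / 4 : ℝ) *
      ‖((l * t : ℝ) : ℂ) - a‖ ^ (-(1 / 4 : ℝ))) =
      (‖(-(E : ℂ)) + t • (l : ℂ)‖ₑ / ‖-a + t • (l : ℂ)‖ₑ) ^ (1 / 4 : ℝ) := by
    intro t
    rw [← P365L.X.ofReal_ratio (hne t) hq.le, hy t, hx t,
      Real.div_rpow (norm_nonneg _) (norm_nonneg _), Real.rpow_neg (norm_nonneg _)]
    congr 1
  simp only [e1, e2]
  have k1 := P365L.X.one_up h hq hq1 (1 : ℂ) (0 : ℂ) (-a) (l : ℂ)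
  have k2 := P365L.X.one_low h hq (by norm_num) (-(E : ℂ)) (l : ℂ) (-a) (l : ℂ)
  have n1 : ‖((1 : ℂ), (0 : ℂ))‖ₑ = 1 := by
    rw [← ofReal_norm_eq_enorm, Prod.norm_def]
    simp
  have n2 : ENNReal.ofReal l ≤ ‖((-(E : ℂ)), (l : ℂ))‖ₑ := by
    rw [← ofReal_norm_eq_enorm]
    refine ENNReal.ofReal_le_ofReal ?_
    refine le_trans (le_of_eq ?_) (norm_snd_le ((-(E : ℂ)), (l : ℂ)))
    simp [abs_of_pos hl]
  obtain ⟨D, hD⟩ : ∃ D : ℝ≥0∞, D = ‖(-a, (l : ℂ))‖ₑ := ⟨_, rfl⟩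
  rw [n1, ← hD] at k1
  rw [← hD] at k2
  refine le_trans ?_ k2
  calc 5 * ∫⁻ t : ℝ, (‖(1 : ℂ) + t • (0 : ℂ)‖ₑ / ‖-a + t • (l : ℂ)‖ₑ) ^ (1 / 4 : ℝ) ∂m
      ≤ 5 * (P365L.X.Cu C0 (1 / 4) * (1 / D) ^ (1 / 4 : ℝ)) := by gcongr
    _ = (5 * P365L.X.Cu C0 (1 / 4)) * (1 / D) ^ (1 / 4 : ℝ) := by ring
    _ ≤ (P365L.X.cl c0 * ENNReal.ofReal (l ^ (1 / 4 : ℝ))) * (1 / D) ^ (1 / 4 : ℝ) := by gcongr
    _ = P365L.X.cl c0 * (ENNReal.ofReal l / D) ^ (1 / 4 : ℝ) := by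
        rw [mul_assoc, ← ENNReal.ofReal_rpow_of_pos hl, ← ENNReal.mul_rpow_of_nonneg _ _ hq.le,
          mul_one_div]
    _ ≤ P365L.X.cl c0 * (‖((-(E : ℂ)), (l : ℂ))‖ₑ / D) ^ (1 / 4 : ℝ) := by gcongr

/-- **localization at strong disorder**, uniformly over the regular laws -/
theorem fmR_strong (C0 : ℝ) {c0 : ℝ} (hc0 : 0 < c0) :
    ∃ L : ℝ, 0 < L ∧ ∀ l : ℝ, L ≤ l → ∀ (m : Measure ℝ), P365L.X.Reg C0 c0 m →
      ∀ E : ℝ, P365L.InfB.FMboxR (m.map fun t => l * t) E := by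
  obtain ⟨R, hR⟩ : ∃ R : ℝ≥0∞, R = 5 * P365L.X.Cu C0 (1 / 4) / P365L.X.cl c0 := ⟨_, rfl⟩
  have hcl := P365L.X.cl_ne_zero hc0
  have hct : P365L.X.cl c0 ≠ ∞ := P365L.X.cl_ne_top
  have hCu : P365L.X.Cu C0 (1 / 4) ≠ ∞ := P365L.X.Cu_ne_top (by norm_num)
  have hRt : R ≠ ∞ := by
    rw [hR]
    exact ENNReal.div_ne_top (ENNReal.mul_ne_top (by norm_num) hCu) hcl
  have hR0 : 0 ≤ R.toReal := ENNReal.toReal_nonneg
  refine ⟨R.toReal ^ 4 + 1, by positivity, fun l hl m hreg E => ?_⟩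
  have hlp : 0 < l := lt_of_lt_of_le (by positivity) hl
  have hprob : IsProbabilityMeasure m := hreg.prob
  have : IsProbabilityMeasure (m.map fun t => l * t) :=
    Measure.isProbabilityMeasure_map (meas_mul l).aemeasurable
  have hL : 5 * P365L.X.Cu C0 (1 / 4) ≤ P365L.X.cl c0 * ENNReal.ofReal (l ^ (1 / 4 : ℝ)) := by
    have h1 : R ≤ ENNReal.ofReal (l ^ (1 / 4 : ℝ)) := by
      rw [← ENNReal.ofReal_toReal hRt]
      refine ENNReal.ofReal_le_ofReal ?_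
      calc R.toReal = (R.toReal ^ 4) ^ (1 / 4 : ℝ) := by
            rw [← Real.rpow_natCast, ← Real.rpow_mul hR0]
            norm_num
        _ ≤ l ^ (1 / 4 : ℝ) := Real.rpow_le_rpow (by positivity) (by linarith) (by norm_num)
    calc 5 * P365L.X.Cu C0 (1 / 4) = P365L.X.cl c0 * R := by
          rw [hR, ENNReal.mul_div_cancel hcl hct]
      _ ≤ _ := by gcongr
  refine ⟨1 / 4, 1, Real.log (5 / 4), 1, by norm_num, by norm_num,
    Real.log_pos (by norm_num), one_pos, fun η hη hη1 y => Eventually.of_forall fun M hy => ?_⟩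
  have h1 := X5.fm_decay (ν := m.map fun t => l * t) (AL_symm M) (X5.AL_01 M) (X5.AL_row M)
    (s := 1 / 4) (by norm_num) (by norm_num) (E := E) (fun a ha => strong_dec hreg hlp hL E ha)
    (z := E + η * I) (by simpa using hη) (by simp)
    (oL M) (fun x => Inf.n1 (x : Site)) (by simp [Inf.n1, oL])
    (X5.AL_lip M) ⟨y, hy⟩
  have h2 : (1 : ℝ) * Real.exp (-Real.log (5 / 4) * Inf.n1 y) = (4 / 5) ^ Inf.n1 y := by
    rw [one_mul, mul_comm, ← Real.log_inv, Real.exp_nat_mul, Real.exp_log (by norm_num)]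
    norm_num
  rw [h2]
  exact h1

/-- **uniform localization at every coupling `λ ≥ λ₁`** for one law `m` dominated by `(1 + δ₀)` times
the law `background + κ · Cauchy` and with density at least `c` on `[-b, b]`, `b ≥ max 1 (1/λ₁)` -/
theorem fmR_unif {κ : ℝ} (hκ : 0 < κ) (ρ : Measure ℝ) [IsProbabilityMeasure ρ] {B : ℝ}
    (hρ : ρ (Set.Icc (-B) B)ᶜ = 0) {b c : ℝ} (hc : 0 < c) {l₁ : ℝ} (hl₁ : 0 < l₁)
    (hb1 : 1 ≤ b) (hb : 1 ≤ l₁ * b) :
    ∃ δ₀ : ℝ, 0 < δ₀ ∧ δ₀ ≤ 1 ∧ ∀ (m : Measure ℝ) [IsProbabilityMeasure m],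
      m ≤ ENNReal.ofReal (1 + δ₀) • qlaw κ ρ →
      ENNReal.ofReal c • (volume : Measure ℝ).restrict (Set.Icc (-b) b) ≤ m →
      ∀ l : ℝ, l₁ ≤ l → ∀ E : ℝ, P365L.InfB.FMboxR (m.map fun t => l * t) E := by
  obtain ⟨K, hK, hKq⟩ := qlaw_le_nu hκ ρ hρ
  obtain ⟨L, hL, HL⟩ := fmR_strong (2 * K) hc
  obtain ⟨δ₁, hδ₁, H⟩ := fmR_compact hκ ρ hρ hc (L := L) hl₁ hb
  refine ⟨min δ₁ 1, lt_min hδ₁ one_pos, min_le_right _ _, fun m hm hdom hlow l hl E => ?_⟩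
  rcases le_total l L with h | h
  · exact H l hl h m (smul_le_smul_ofReal hdom (by linarith [min_le_left δ₁ 1])) hlow E
  · refine HL l h m ?_ E
    refine P365L.X.Reg.of_cauchy (by positivity) hc ?_ ?_
    · refine hdom.trans ?_
      refine Measure.le_iff.2 fun s _ => ?_
      rw [Measure.smul_apply, Measure.smul_apply, smul_eq_mul, smul_eq_mul,
        ENNReal.ofReal_mul (by norm_num), mul_assoc]
      have h2 := hKq s
      rw [Measure.smul_apply, smul_eq_mul] at h2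
      refine mul_le_mul' (ENNReal.ofReal_le_ofReal ?_) h2
      have := min_le_right δ₁ 1
      linarith
    · refine le_trans ?_ hlow
      refine Measure.le_iff.2 fun s hs => ?_
      rw [Measure.smul_apply, Measure.smul_apply, smul_eq_mul, smul_eq_mul,
        Measure.restrict_apply hs, Measure.restrict_apply hs]
      gcongr

theorem nu_le_volume : nu ≤ (volume : Measure ℝ) := by
  refine Measure.le_iff.2 fun s hs => ?_
  have e : nu = volume.withDensity (cauchyPDF 0 1) :=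
    cauchyMeasure_of_scale_ne_zero 0 one_ne_zero
  rw [e, withDensity_apply _ hs, ← setLIntegral_one]
  refine lintegral_mono fun t => ?_
  rw [cauchyPDF, ENNReal.ofReal_le_one, cauchyPDFReal_def]
  simp only [NNReal.coe_one, mul_one, sub_zero, one_pow]
  have h2 : π⁻¹ ≤ 1 := inv_le_one_of_one_le₀ (by linarith only [Real.pi_gt_three])
  have h3 : (t ^ 2 + 1)⁻¹ ≤ 1 := inv_le_one_of_one_le₀ (by nlinarith only [sq_nonneg t])
  exact mul_le_one₀ h2 (by positivity) h3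

/-- **CORE, uniform in the coupling**: for one single-site law `m`, pure point spectrum for the iid
potential `λ V` at every coupling `λ ≥ λ₁` -/
theorem core_unif {κ : ℝ} (hκ : 0 < κ) (ρ : Measure ℝ) [IsProbabilityMeasure ρ] {B : ℝ}
    (hρ : ρ (Set.Icc (-B) B)ᶜ = 0) {b c : ℝ} (hc : 0 < c) {l₁ : ℝ} (hl₁ : 0 < l₁)
    (hb1 : 1 ≤ b) (hb : 1 ≤ l₁ * b) :
    ∃ δ₀ : ℝ, 0 < δ₀ ∧ δ₀ ≤ 1 ∧ ∀ (m : Measure ℝ) [IsProbabilityMeasure m],
      m ≤ ENNReal.ofReal (1 + δ₀) • qlaw κ ρ →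
      ENNReal.ofReal c • (volume : Measure ℝ).restrict (Set.Icc (-b) b) ≤ m →
      ∀ l : ℝ, l₁ ≤ l →
      ∀ {Ω : Type*} [MeasurableSpace Ω] (P : Measure Ω) [IsProbabilityMeasure P]
        (V : Site → Ω → ℝ), (∀ x, Measurable (V x)) → iIndepFun V P → (∀ x, P.map (V x) = m) →
        ∀ᵐ ω ∂P, Inf.EE (fun x => l * V x ω) = ⊤ ∧ ∀ (ψ : L2) (μ : Measure ℝ),
          IsSpectralMeasure (fun x => l * V x ω) ψ μ → ∃ S : Set ℝ, S.Countable ∧ μ Sᶜ = 0 := by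
  obtain ⟨K, hK, hKq⟩ := qlaw_le_nu hκ ρ hρ
  obtain ⟨δ₀, hδ₀, hδ1, H⟩ := fmR_unif hκ ρ hρ hc hl₁ hb1 hb
  refine ⟨δ₀, hδ₀, hδ1, fun m hm hdom hlow l hl Ω _ P _ V hV hi hlaw => ?_⟩
  have hlp : 0 < l := hl₁.trans_le hl
  have : IsProbabilityMeasure (m.map fun t => l * t) :=
    Measure.isProbabilityMeasure_map (meas_mul l).aemeasurable
  have hvol : (m.map fun t => l * t) ≤
      ENNReal.ofReal ((1 + δ₀) * K * |l⁻¹|) • (volume : Measure ℝ) := by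
    refine Measure.le_iff.2 fun s hs => ?_
    rw [Measure.map_apply (meas_mul l) hs, Measure.smul_apply, smul_eq_mul]
    have h1 := hdom ((fun t : ℝ => l * t) ⁻¹' s)
    have h2 := hKq ((fun t : ℝ => l * t) ⁻¹' s)
    have h3 := nu_le_volume ((fun t : ℝ => l * t) ⁻¹' s)
    rw [Measure.smul_apply, smul_eq_mul] at h1 h2
    rw [Real.volume_preimage_mul_left hlp.ne'] at h3
    calc m ((fun t : ℝ => l * t) ⁻¹' s)
        ≤ ENNReal.ofReal (1 + δ₀) * (ENNReal.ofReal K * (ENNReal.ofReal |l⁻¹| * volume s)) :=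
          h1.trans (mul_le_mul_right (h2.trans (mul_le_mul_right h3 _)) _)
      _ = ENNReal.ofReal ((1 + δ₀) * K * |l⁻¹|) * volume s := by
          rw [ENNReal.ofReal_mul (by positivity), ENNReal.ofReal_mul (by positivity)]
          ring
  have h := P365L.InfB.pure_point_iid (P := P) (V := fun x ω => l * V x ω)
    (K := (1 + δ₀) * K * |l⁻¹|) (by positivity) hvol
    (fun x => (hV x).const_mul l) (hi.comp (fun _ t => l * t) fun _ => meas_mul l)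
    (fun x => by
      rw [← hlaw x, Measure.map_map (meas_mul l) (hV x)]
      rfl)
    (H m hdom hlow l hl)
  filter_upwards [h] with ω hω
  exact ⟨hω, fun ψ μ hμ => Inf.spectral_atomic hω hμ⟩

end P365L.X7
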